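import Vale.Agent.P022D.As.Cov

/-!
# P022K, patching: coefficient rings, the cover by the roots of the inertia polynomials
-/

set_option linter.all false

open IsLocalRing Polynomial

noncomputable section

namespace Vale.Agent.P022K.Pat

open Vale.Agent.P022D Vale.Agent.P022D.As
open Vale.Agent.P022D.Core (PS io y1)

/-- the coefficient rings: complete discrete valuation rings with finite residue field -/
class Cf (O : Type) [CommRing O] [IsDomain O] [IsDiscreteValuationRing O] : Prop where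
  cpl : IsAdicComplete (maximalIdeal O) O
  fin : Finite (ResidueField O)

instance base (O σ : Type) [CommRing O] [IsDomain O] [IsDiscreteValuationRing O] [hO : Cf O]
    [Fintype σ] : PA.Base (PS O σ) := by
  have _ := hO.fin
  exact { cpl := CA.Cpl.isAdicCompleteV hO.cpl, fin := CA.Cpl.finite_residue }

theorem cov (O σ : Type) [CommRing O] [IsDomain O] [IsDiscreteValuationRing O] [hO : Cf O]
    [Fintype σ] (r : ℕ) (a b : Fin r → PS O σ) (hab : ∀ i, ¬ IsUnit (a i) ∧ ¬ IsUnit (b i)) :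
    letI : Algebra (PS O σ) (PS O (σ ⊕ Fin r)) := (io O σ r).toAlgebra
    PA.Cov (PS O σ) (PS O (σ ⊕ Fin r)) (y1 O σ) a b (Ideal.span (Set.range fun i =>
      y1 O σ i ^ 2 - io O σ r (a i) * y1 O σ i + io O σ r (b i))) := by
  letI : Algebra (PS O σ) (PS O (σ ⊕ Fin r)) := (io O σ r).toAlgebra
  set 𝔯 : Ideal (PS O (σ ⊕ Fin r)) := Ideal.span (Set.range fun i =>
      y1 O σ i ^ 2 - io O σ r (a i) * y1 O σ i + io O σ r (b i)) with h𝔯
  have hrel : ∀ q, y1 O σ q ^ 2 - io O σ r (a q) * y1 O σ q + io O σ r (b q) ∈ 𝔯 :=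
    fun q => Ideal.subset_span ⟨q, rfl⟩
  obtain ⟨B, _, _, t, h1, h2, h3, h4, h5⟩ := CovAux.exB (PS O σ) r a b
  have hA : IsAdicComplete (maximalIdeal (PS O σ)) (PS O σ) := CA.Cpl.isAdicCompleteV hO.cpl
  have hN : IsNoetherianRing B := IsNoetherianRing.of_finite (PS O σ) B
  let I : Ideal B := (maximalIdeal (PS O σ)).map (algebraMap (PS O σ) B)
  have hI : IsAdicComplete I B :=
    { toIsHausdorff := IsHausdorff.map_algebraMap_iff.2 inferInstance
      toIsPrecomplete := IsPrecomplete.map_algebraMap_iff.2 (CovAux.prec_free _) }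
  have hJ : I.radical ≤ I.radical := le_rfl
  obtain ⟨N, hN⟩ := Ideal.exists_pow_le_of_le_radical_of_fg hJ (IsNoetherian.noetherian _)
  have hB : IsAdicComplete I.radical B := CovAux.cpl_of_pow I _ N Ideal.le_radical hN
  have hXm : ∀ (τ : Type) (s : τ), (MvPowerSeries.X s : PS O τ) ∈ maximalIdeal (PS O τ) :=
    fun τ s => by
      rw [CA.Cpl.mem_max_iff, MvPowerSeries.constantCoeff_X]; exact Ideal.zero_mem _
  have hXI : ∀ s, algebraMap (PS O σ) B (MvPowerSeries.X s) ∈ I.radical := fun s =>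
    Ideal.le_radical (Ideal.mem_map_of_mem _ (hXm σ s))
  have hx : ∀ i, Sum.elim (fun s => algebraMap (PS O σ) B (MvPowerSeries.X s)) t i ∈
      I.radical := by
    rintro (s | i)
    · exact hXI s
    · refine ⟨2, ?_⟩
      have e : t i ^ 2 = algebraMap (PS O σ) B (a i) * t i - algebraMap (PS O σ) B (b i) := by
        linear_combination h3 i
      rw [Sum.elim_inr, e]
      exact Ideal.sub_mem _ (Ideal.mul_mem_right _ _ (Ideal.mem_map_of_mem _ (hab i).1))
        (Ideal.mem_map_of_mem _ (hab i).2)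
  obtain ⟨ψ, hψC, hψX⟩ := NR.exists_ev I.radical
    ((algebraMap (PS O σ) B).comp MvPowerSeries.C) _ hx
  have ioC : ∀ o, io O σ r (MvPowerSeries.C o) = MvPowerSeries.C o := fun o =>
    MvPowerSeries.rename_C _ o
  have ioX : ∀ s, io O σ r (MvPowerSeries.X s) = MvPowerSeries.X (Sum.inl s) := fun s =>
    MvPowerSeries.rename_X _ s
  have hψio : ψ.comp (io O σ r) = algebraMap (PS O σ) B := by
    refine NR.ev_ext I.radical (fun o => ?_) (fun s => ?_) (fun s => ?_)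
    · rw [RingHom.comp_apply, ioC, hψC]; rfl
    · rw [RingHom.comp_apply, ioX, hψX]; rfl
    · rw [RingHom.comp_apply, ioX, hψX]; exact hXI s
  have hψio' : ∀ u, ψ (io O σ r u) = algebraMap (PS O σ) B u := fun u =>
    congrArg (fun f : PS O σ →+* B => f u) hψio
  have hψy : ∀ i, ψ (y1 O σ i) = t i := fun i => hψX (Sum.inr i)
  have hker : ∀ u ∈ 𝔯, ψ u = 0 := by
    have : 𝔯 ≤ RingHom.ker ψ := by
      rw [h𝔯, Ideal.span_le]
      rintro _ ⟨i, rfl⟩
      change ψ _ = 0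
      rw [map_add, map_sub, map_mul, map_pow, hψio', hψio', hψy, h3]
    exact fun u hu => this hu
  let ψ' : (PS O (σ ⊕ Fin r) ⧸ 𝔯) →ₐ[PS O σ] B :=
    { Ideal.Quotient.lift 𝔯 ψ hker with commutes' := fun u => hψio' u }
  have hψ' : ∀ u, ψ' (Ideal.Quotient.mk 𝔯 u) = ψ u := fun u => rfl
  have halg : ∀ u, algebraMap (PS O σ) (PS O (σ ⊕ Fin r) ⧸ 𝔯) u =
      Ideal.Quotient.mk 𝔯 (io O σ r u) := fun u => rfl
  let S := Algebra.adjoin (PS O σ) (Set.range fun q => Ideal.Quotient.mk 𝔯 (y1 O σ q))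
  obtain ⟨φ0, hφ0⟩ := h5 S (fun i => ⟨Ideal.Quotient.mk 𝔯 (y1 O σ i),
    Algebra.subset_adjoin ⟨i, rfl⟩⟩) (fun i => Subtype.ext (by
      change Ideal.Quotient.mk 𝔯 (y1 O σ i) ^ 2 - Ideal.Quotient.mk 𝔯 (io O σ r (a i)) *
        Ideal.Quotient.mk 𝔯 (y1 O σ i) + Ideal.Quotient.mk 𝔯 (io O σ r (b i)) = 0
      rw [← map_pow, ← map_mul, ← map_sub, ← map_add]
      exact Ideal.Quotient.eq_zero_iff_mem.2 (hrel i)))
  let φ : B →ₐ[PS O σ] (PS O (σ ⊕ Fin r) ⧸ 𝔯) := S.val.comp φ0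
  have hφ : ∀ i, φ (t i) = Ideal.Quotient.mk 𝔯 (y1 O σ i) := fun i => by
    change (φ0 (t i)).1 = _
    rw [hφ0]
  have e1 : ψ'.comp φ = AlgHom.id _ B := h4 B _ _ fun i => by
    rw [AlgHom.comp_apply, hφ, hψ', hψy]; rfl
  have hH : IsHausdorff ((maximalIdeal (PS O (σ ⊕ Fin r))).map
      (algebraMap (PS O (σ ⊕ Fin r)) (PS O (σ ⊕ Fin r) ⧸ 𝔯))) (PS O (σ ⊕ Fin r) ⧸ 𝔯) :=
    IsHausdorff.map_algebraMap_iff.2 inferInstance
  have e2 : Ideal.Quotient.mk 𝔯 = (φ : B →+* _).comp ψ := by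
    refine NR.ev_ext ((maximalIdeal (PS O (σ ⊕ Fin r))).map
      (algebraMap (PS O (σ ⊕ Fin r)) (PS O (σ ⊕ Fin r) ⧸ 𝔯))) (fun o => ?_) ?_ (fun s => ?_)
    · rw [RingHom.comp_apply, ← ioC, hψio', RingHom.coe_coe, AlgHom.commutes, halg]
    · rintro (s | i)
      · rw [RingHom.comp_apply, ← ioX, hψio', RingHom.coe_coe, AlgHom.commutes, halg]
      · exact (hφ i).symm.trans (congrArg φ (hψy i).symm)
    · exact Ideal.mem_map_of_mem _ (hXm _ s)
  have e3 : ∀ u, φ (ψ' u) = u := fun u => by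
    obtain ⟨u, rfl⟩ := Ideal.Quotient.mk_surjective u
    rw [hψ']
    exact (congrArg (fun f : PS O (σ ⊕ Fin r) →+* _ => f u) e2).symm
  have hb : Function.Bijective φ :=
    ⟨Function.LeftInverse.injective (g := ψ') fun u => congrArg (fun f : B →ₐ[PS O σ] B => f u) e1,
      fun u => ⟨ψ' u, e3 u⟩⟩
  let E := (AlgEquiv.ofBijective φ hb).toLinearEquiv
  refine ⟨hrel, Module.Free.of_equiv E, Module.Finite.equiv E, ?_⟩
  refine Algebra.eq_top_iff.2 fun u => ?_
  rw [← e3 u]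
  exact (φ0 (ψ' u)).2

end Vale.Agent.P022K.Pat
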