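import Vale.Agent.P022D.As.Defs
import Vale.Agent.P022D.Du.Soc

/-!
P022K, patching: from group elements of order `p ^ n` to boxes (any prime `p`).
-/

noncomputable section

namespace Vale.Agent.P022K.Pat

open Submodule Polynomial
open Vale.Agent.P022D.Du (nm mul_nm)
open Vale.Agent.P022D.As (DS)

variable {p : ℕ}

theorem geom_dvd {R : Type} [CommRing R] (z : R) (p : ℕ) :
    (z - 1) ∣ ∑ k ∈ Finset.range p, z ^ k - p := by
  have : (∑ k ∈ Finset.range p, z ^ k - p : R) = ∑ k ∈ Finset.range p, (z ^ k - 1) := by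
    rw [Finset.sum_sub_distrib]; simp
  rw [this]
  exact Finset.dvd_sum fun k _ => by simpa using sub_dvd_pow_sub_pow z 1 k

theorem pow_pow_mem (p a : ℕ) :
    ((1 + X : ℤ[X]) ^ p ^ a - 1) ∈ (Ideal.span {(p : ℤ[X])} ⊔ Ideal.span {X}) ^ (a + 1) := by
  have hX : (X : ℤ[X]) ∈ Ideal.span {(p : ℤ[X])} ⊔ Ideal.span {X} :=
    mem_sup_right (Ideal.mem_span_singleton_self _)
  have h2 : (p : ℤ[X]) ∈ Ideal.span {(p : ℤ[X])} ⊔ Ideal.span {X} :=
    mem_sup_left (Ideal.mem_span_singleton_self _)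
  induction a with
  | zero => simpa using hX
  | succ a ih =>
    obtain ⟨c, hc⟩ := geom_dvd ((1 + X : ℤ[X]) ^ p ^ a) p
    have e : ((1 + X : ℤ[X]) ^ p ^ (a + 1) - 1) =
        ((1 + X) ^ p ^ a - 1) * (((1 + X) ^ p ^ a - 1) * c + (p : ℤ[X])) := by
      rw [pow_succ, pow_mul, ← mul_geom_sum, ← hc, sub_add_cancel]
    rw [e, pow_succ _ (a + 1)]
    exact Ideal.mul_mem_mul ih (add_mem (Ideal.mul_mem_right _ _
      (Ideal.pow_le_self (Nat.succ_ne_zero a) ih)) h2)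

/-- the norm element is `X ^ j ν` modulo `p ^ (j + 1)` -/
theorem exists_nu (hp : p ≠ 0) (j n : ℕ) (h : 2 * j + 1 ≤ n) : ∃ A ν : ℤ[X],
    ∑ k ∈ Finset.range (p ^ n), (1 + X : ℤ[X]) ^ k = (p : ℤ[X]) ^ (j + 1) * A + X ^ j * ν := by
  have h1 := Ideal.sup_pow_add_le_pow_sup_pow (I := Ideal.span {(p : ℤ[X])})
    (J := Ideal.span {X}) (n := j + 1) (m := j + 1)
    (Ideal.pow_le_pow_right (by omega) (pow_pow_mem p n))
  rw [Ideal.span_singleton_pow, Ideal.span_singleton_pow] at h1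
  obtain ⟨_, h2, _, h3, e⟩ := mem_sup.1 h1
  obtain ⟨A, rfl⟩ := Ideal.mem_span_singleton'.1 h2
  obtain ⟨ν, rfl⟩ := Ideal.mem_span_singleton'.1 h3
  have h4 : (X : ℤ[X]) ∣ A := by
    rw [X_dvd_iff]
    have h5 := congrArg (eval 0) e
    simp [hp] at h5
    rw [coeff_zero_eq_eval_zero]
    exact h5
  obtain ⟨A', rfl⟩ := h4
  refine ⟨A', ν, mul_left_cancel₀ X_ne_zero ?_⟩
  have h6 := mul_geom_sum (1 + X : ℤ[X]) (p ^ n)
  rw [add_sub_cancel_left] at h6
  rw [h6, ← e]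
  ring

variable {P : Type} [CommRing P] {W : Type} [AddCommGroup W] [Module P W]

theorem exists_nu' (hp : p ≠ 0) (j n : ℕ) (h : 2 * j + 1 ≤ n) (y : P) : ∃ A ν : P,
    nm y (p ^ n) = (p : P) ^ (j + 1) * A + y ^ j * ν := by
  obtain ⟨A, ν, e⟩ := exists_nu hp j n h
  refine ⟨aeval y A, aeval y ν, ?_⟩
  have h1 := congrArg (aeval y) e
  simp only [map_sum, map_pow, map_add, map_one, aeval_X, map_mul, map_natCast] at h1
  rw [nm, h1]

theorem root_aux (hp : p ≠ 0) {κ : Type} [Fintype κ] (y : κ → P) (n : κ → ℕ) (j : ℕ)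
    (hn : ∀ i, 2 * j + 1 ≤ n i) (hy : ∀ i (w : W), (1 + y i) ^ p ^ n i • w = w) :
    ∃ ν : P, (∀ w : W, (p : P) ^ (j + 1) • w = 0 → ∀ i, y i ^ (j + 1) • ν • w = 0) ∧
      ∀ w : W, (p : P) • w = 0 → (∏ i, y i) ^ j • ν • w = (∏ i, nm (y i) (p ^ n i)) • w := by
  classical
  choose A ν e using fun i => exists_nu' hp j (n i) (hn i) (y i)
  refine ⟨∏ i, ν i, fun w hw i => ?_, fun w hw => ?_⟩
  · have h1 : y i ^ (j + 1) * ν i =
        ((1 + y i) ^ p ^ n i - 1) - y i * A i * (p : P) ^ (j + 1) := by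
      rw [← mul_nm, e]
      ring
    rw [← Finset.prod_erase_mul _ _ (Finset.mem_univ i), ← mul_smul, mul_left_comm, mul_smul, h1,
      sub_smul, sub_smul, hy, one_smul, sub_self, mul_smul, hw, smul_zero, sub_zero, smul_zero]
  · have h1 : ∀ s : Finset κ,
        (p : P) ∣ ∏ i ∈ s, nm (y i) (p ^ n i) - ∏ i ∈ s, y i ^ j * ν i := by
      intro s
      induction s using Finset.induction_on with
      | empty => simp
      | insert a s ha ih =>
        rw [Finset.prod_insert ha, Finset.prod_insert ha]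
        obtain ⟨z, hz⟩ := ih
        refine ⟨(p : P) ^ j * A a * ∏ i ∈ s, nm (y i) (p ^ n i) + y a ^ j * ν a * z, ?_⟩
        rw [e a]
        linear_combination (y a ^ j * ν a) * hz
    obtain ⟨z, hz⟩ := h1 Finset.univ
    rw [← mul_smul, ← Finset.prod_pow, ← Finset.prod_mul_distrib, eq_comm, ← sub_eq_zero,
      ← sub_smul, hz, mul_comm, mul_smul, hw, smul_zero]

/-- **from group elements to boxes**: `W` is flat over `O / ϖ ^ (n + 1)` and every invariant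
killed by `ϖ` is the norm of an element killed by `ϖ` -/
theorem grp (hp : p ≠ 0) {ι : Type} [Fintype ι] {ϖ : P} (he : ϖ ∣ (p : P)) {j n : ℕ}
    (hn : 2 * j + 1 ≤ n) (u : ι → P) (h1 : ∀ w : W, ϖ ^ (n + 1) • w = 0)
    (h2 : ∀ w : W, ϖ • w = 0 → ∃ w' : W, w = ϖ ^ n • w')
    (h3 : ∀ i (w : W), (1 + u i) ^ p ^ n • w = w)
    (h4 : ∀ w : W, ϖ • w = 0 → (∀ i, u i • w = 0) →
      ∃ w' : W, ϖ • w' = 0 ∧ w = (∏ i, nm (u i) (p ^ n)) • w') :
    DS (fun o : Option ι => o.elim ϖ u) j W := by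
  intro w hw
  obtain ⟨e, he⟩ := he
  obtain ⟨ν, h5, h6⟩ := root_aux hp (W := W) u (fun _ => n) j (fun _ => hn) h3
  obtain ⟨w1, a1, rfl⟩ := h4 w (hw none) fun i => hw (some i)
  obtain ⟨w2, rfl⟩ := h2 w1 a1
  obtain ⟨m, rfl⟩ : ∃ m, n = j + m := ⟨n - j, by omega⟩
  have b1 : ϖ ^ (j + 1) • ϖ ^ m • w2 = 0 := by
    rw [← mul_smul, ← pow_add, show j + 1 + m = j + m + 1 by ring, h1]
  have b2 : (p : P) • ϖ ^ (j + m) • w2 = 0 := by rw [he, mul_comm, mul_smul, a1, smul_zero]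
  refine ⟨ν • ϖ ^ m • w2, fun o => ?_, ?_⟩
  · cases o with
    | none => exact (smul_comm _ _ _).trans ((congrArg (ν • ·) b1).trans (smul_zero _))
    | some i =>
      refine h5 _ ?_ i
      rw [he, mul_pow, mul_comm, mul_smul, b1, smul_zero]
  · rw [Fintype.prod_option]
    simp only [Option.elim_none, Option.elim_some]
    rw [mul_pow, mul_comm, mul_smul, smul_comm (ϖ ^ j) ν, ← mul_smul (ϖ ^ j), ← pow_add, h6 _ b2]

end Vale.Agent.P022K.Pat
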