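import Vale.Agent.P022D.As.EndA
import Vale.Agent.P022D.As.Dgd
import Vale.Agent.P022D.As.Dual
import Vale.Agent.P022K.Pat.Grp

/-!
# P022K, patching over an abstract complete local ring: support of the patched module
-/

set_option linter.all false

open IsLocalRing Filter

noncomputable section

namespace Vale.Agent.P022K.Pat

open Vale.Agent.P022D Vale.Agent.P022D.PA Vale.Agent.P022D.As Vale.Agent.P022D.As.EA
open Vale.Agent.P022D.Du (nm)

variable {P : Type} [CommRing P] {ι : Type}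

/-- the part of `W` killed by the `y i` is a part of `W0` which contains `W0[π]` -/
def Fb (π : P) (y : ι → P) (W0 W : Type) [AddCommGroup W0] [Module P W0] [AddCommGroup W]
    [Module P W] : Prop :=
  ∃ (N : Submodule P W0) (β : N →ₗ[P] W), (∀ w : W0, π • w = 0 → w ∈ N) ∧ Function.Injective β ∧
    ∀ v, v ∈ LinearMap.range β ↔ ∀ i, y i • v = 0

/-- **patching data**: discrete modules `W n`, cofree over the truncated rings of the parameters
`ϖ, y n i`, with the fixed fibre `W0` -/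
structure PD [IsLocalRing P] [Fintype ι] (ϖ : P) (y : ℕ → ι → P) (W : ℕ → Type) (W0 : Type)
    [∀ n, AddCommGroup (W n)] [∀ n, Module P (W n)] [AddCommGroup W0] [Module P W0] : Prop where
  pm : ϖ ∈ maximalIdeal P
  ym : ∀ n i, y n i ∈ maximalIdeal P
  dis : ∀ n, Dis P (W n)
  dis0 : Dis P W0
  sb0 : ∃ b, Sb P b W0
  soc : ∀ j : ℕ, ∀ᶠ n in atTop, DS (fun o : Option ι => o.elim ϖ (y n)) j (W n)
  fib : ∀ n, Fb (ϖ ^ (n + 1)) (y n) W0 (W n)

/-- one level, with a group `(Z / p ^ n) ^ ι` of diamond operators `1 + y i` -/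
structure Lv [Fintype ι] (p : ℕ) (ϖ : P) (y : ι → P) (n : ℕ) (W : Type) [AddCommGroup W]
    [Module P W] : Prop where
  pi : ∀ w : W, ϖ ^ (n + 1) • w = 0
  flat : ∀ w : W, ϖ • w = 0 → ∃ w' : W, w = ϖ ^ n • w'
  grp : ∀ i (w : W), (1 + y i) ^ p ^ n • w = w
  free : ∀ w : W, ϖ • w = 0 → (∀ i, y i • w = 0) →
    ∃ w' : W, ϖ • w' = 0 ∧ w = (∏ i, nm (y i) (p ^ n)) • w'

theorem soc_of_lv [Fintype ι] {p : ℕ} (hp : p ≠ 0) {ϖ : P} (he : ϖ ∣ (p : P)) {y : ℕ → ι → P}
    {W : ℕ → Type} [∀ n, AddCommGroup (W n)] [∀ n, Module P (W n)]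
    (h : ∀ n, Lv p ϖ (y n) n (W n)) (j : ℕ) :
    ∀ᶠ n in atTop, DS (fun o : Option ι => o.elim ϖ (y n)) j (W n) :=
  (eventually_ge_atTop (2 * j + 1)).mono fun n hn =>
    grp hp he hn (y n) (h n).pi (h n).flat (h n).grp (h n).free

theorem sb_of [IsLocalRing P] {b : ℕ} {W0 W : Type} [AddCommGroup W0] [Module P W0]
    [AddCommGroup W] [Module P W] (h : Sb P b W0) (N : Submodule P W0) (β : N →ₗ[P] W)
    (hN : ∀ w : W0, (∀ u ∈ maximalIdeal P, u • w = 0) → w ∈ N) (hβ : Function.Injective β)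
    (hr : ∀ v : W, (∀ u ∈ maximalIdeal P, u • v = 0) → v ∈ LinearMap.range β) : Sb P b W := by
  obtain ⟨s, s1, s2⟩ := h
  refine ⟨fun j => β ⟨s j, hN _ (s1 j)⟩, fun j u hu => ?_, fun v hv => ?_⟩
  · rw [← map_smul, ← map_zero β]
    exact congrArg β (Subtype.ext (s1 j u hu))
  · obtain ⟨w, rfl⟩ := hr v hv
    obtain ⟨c, hc⟩ := (Submodule.mem_span_range_iff_exists_fun P).1 (s2 w.1 fun u hu =>
      congrArg Subtype.val (hβ (by rw [map_smul, hv u hu, map_zero]) : u • w = 0))
    have e : w = ∑ j, c j • (⟨s j, hN _ (s1 j)⟩ : N) :=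
      Subtype.ext (by rw [← hc, Submodule.coe_sum]; rfl)
    rw [e, map_sum]
    exact Submodule.sum_mem _ fun j _ => by
      rw [map_smul]
      exact Submodule.smul_mem _ _ (Submodule.subset_span ⟨j, rfl⟩)

/-- the annihilator of the patched module -/
def PK (P : Type) [CommRing P] [IsLocalRing P] (U : Filter ℕ) (W : ℕ → Type)
    [∀ n, AddCommGroup (W n)] [∀ n, Module P (W n)] : Ideal P :=
  Module.annihilator P (L P U fun n => CharacterModule (W n))

theorem mem_PK [IsLocalRing P] {U : Filter ℕ} {W : ℕ → Type} [∀ n, AddCommGroup (W n)]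
    [∀ n, Module P (W n)] {z : ℕ → P} {a : P} (h : Cv U z a) (hz : ∀ n (w : W n), z n • w = 0) :
    a ∈ PK P U W :=
  ann_lim h fun n => Module.mem_annihilator.1
    (Du.annihilator_le (Module.mem_annihilator.2 (hz n)))

section main

variable [Base P] [Fintype ι] {ϖ : P} {y : ℕ → ι → P} {W : ℕ → Type} {W0 : Type}
  [∀ n, AddCommGroup (W n)] [∀ n, Module P (W n)] [AddCommGroup W0] [Module P W0]

theorem PD.gd (h : PD ϖ y W W0) {U : Filter ℕ} (hU : U ≤ atTop) :
    Gd U (fun n (o : Option ι) => o.elim ϖ (y n)) (fun _ => 1) (fun n => CharacterModule (W n))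
      (CharacterModule (Submodule.torsionBy P W0 ϖ)) := by
  obtain ⟨b, hb⟩ := h.sb0
  have e : ∀ n (w : W0), ϖ • w = 0 → ϖ ^ (n + 1) • w = 0 := fun n w hw => by
    rw [pow_succ, mul_smul, hw, smul_zero]
  refine dgd dgen dtor P U _ _ _ W _ ⟨h.dis, fun w => ?_, ⟨b, fun n => ?_⟩, ⟨b, ?_⟩,
    fun j => hU (h.soc j), fun n => ?_⟩
  · obtain ⟨k, hk⟩ := h.dis0 w.1
    exact ⟨k, fun u hu => Subtype.ext (hk u hu)⟩
  · obtain ⟨N, β, b1, b2, b3⟩ := h.fib n
    exact sb_of hb N β (fun w hw => b1 w (e n w (hw _ h.pm))) b2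
      fun v hv => (b3 v).2 fun i => hv _ (h.ym n i)
  · exact sb_of hb _ LinearMap.id (fun w hw => hw _ h.pm) Function.injective_id fun v _ => ⟨v, rfl⟩
  · obtain ⟨N, β, b1, b2, b3⟩ := h.fib n
    have hle : Submodule.torsionBy P W0 ϖ ≤ N := fun w hw => b1 w (e n w hw)
    refine ⟨β.comp (Submodule.inclusion hle), fun o w => ?_, fun w hw => ?_, fun v hv => ?_⟩
    · cases o with
      | none =>
        change ϖ • _ = _
        rw [← map_smul, ← map_zero (β.comp (Submodule.inclusion hle))]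
        exact congrArg _ (Subtype.ext w.2)
      | some i => exact (b3 _).1 ⟨_, rfl⟩ i
    · rw [one_smul]
      exact Submodule.inclusion_injective hle (b2 (hw.trans (map_zero _).symm))
    · obtain ⟨w, rfl⟩ := (b3 v).2 fun i => hv (some i)
      have h1 : ϖ • w = 0 := b2 (by rw [map_smul, map_zero]; exact hv none)
      exact ⟨⟨w.1, congrArg Subtype.val h1⟩, (one_smul _ _).symm⟩

/-- **big fibre**: a prime in the support of `W0[ϖ]` gives a large prime over `PK` -/
theorem PD.big (h : PD ϖ y W W0) (U : Ultrafilter ℕ) (hU : (U : Filter ℕ) ≤ atTop) (𝔭 : Ideal P)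
    [𝔭.IsPrime] (hp : Module.annihilator P (Submodule.torsionBy P W0 ϖ) ≤ 𝔭) :
    ∃ η : Ideal P, η.IsPrime ∧ η ≤ 𝔭 ∧ PK P U W ≤ η ∧
      ((Fintype.card ι + 1 : ℕ) : WithBot ℕ∞) + ringKrullDim (P ⧸ 𝔭) ≤ ringKrullDim (P ⧸ η) := by
  choose a ha using fun o : Option ι => lim P U fun n => o.elim ϖ (y n)
  obtain ⟨-, η, t1, t2, t3, -, t5⟩ := etaC P U hU _ _ _ _ _ (h.gd hU) a 1 ha (cv_const _) 𝔭
    (Du.annihilator_ge.trans hp) ((Ideal.ne_top_iff_one _).1 (Ideal.IsPrime.ne_top ‹_›))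
  exact ⟨η, t1, t2, t3, by rwa [Fintype.card_option] at t5⟩

/-- **seed**: a prime in the support of `W0` gives a large prime over `PK` -/
theorem PD.seed (h : PD ϖ y W W0) (U : Ultrafilter ℕ) (hU : (U : Filter ℕ) ≤ atTop) (𝔭 : Ideal P)
    [𝔭.IsPrime] (hp : Module.annihilator P W0 ≤ 𝔭) :
    ∃ η : Ideal P, η.IsPrime ∧ η ≤ 𝔭 ∧ PK P U W ≤ η ∧
      (Fintype.card ι : WithBot ℕ∞) + ringKrullDim (P ⧸ 𝔭) ≤ ringKrullDim (P ⧸ η) := by
  classical
  choose a ha using fun i : ι => lim P U fun n => y n i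
  have hG := h.gd hU
  haveI := fgC P U _ hG.gen
  have hm : 𝔭 ≤ maximalIdeal P := le_maximalIdeal (Ideal.IsPrime.ne_top ‹_›)
  obtain ⟨η, t1, t2, t3, -, t5⟩ := chn P 𝔭 (L P U fun n => CharacterModule (W n)) ι a
    (fun S i hi v hv => by
      have e : (fun o : Option ι => o.elim ϖ a) '' ((S.image some : Finset (Option ι)) : Set _) =
          a '' (S : Set ι) := by
        rw [Finset.coe_image, ← Set.image_comp]; rfl
      obtain ⟨k, k1, k2⟩ := regC P U hU _ _ _ _ _ hG (fun o => o.elim ϖ a) 1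
        (fun o => by
          cases o with
          | none => exact cv_const _
          | some i => exact ha i) (cv_const _) (maximalIdeal P)
        (fun o => by
          cases o with
          | none => exact h.pm
          | some i => exact (limi P U _ _ _ (ha i)).1 (Eventually.of_forall fun n => h.ym n i))
        ((Ideal.ne_top_iff_one _).1 (maximalIdeal.isMaximal P).ne_top) (S.image some) (some i)
        (by simpa using hi) v (by rw [e]; exact hv)
      exact ⟨k, fun c => k1 (hm c), by rwa [e] at k2⟩)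
    (fun t ht => hp (Module.mem_annihilator.2 fun w => by
      choose N β b1 b2 b3 using h.fib
      refine CharacterModule.eq_zero_of_character_apply fun χ => ?_
      choose φ hφ using fun n => CharacterModule.dual_surjective_of_injective (β n) (b2 n)
        (CharacterModule.dual (N n).subtype χ)
      have h2 := Module.mem_annihilator.mp ht (Submodule.Quotient.mk (Submodule.Quotient.mk φ))
      rw [← Submodule.Quotient.mk_smul, Submodule.Quotient.mk_eq_zero,
        ← Submodule.Quotient.mk_smul] at h2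
      obtain ⟨k, hk⟩ := h.dis0 w
      obtain ⟨n, k1, k2⟩ := (((boxC P U hU _ ι y a ha _).mp h2 k).and
        (hU (eventually_ge_atTop k))).exists
      have hw : w ∈ N n := b1 n w (hk _ (Ideal.pow_le_pow_right (Nat.le_succ_of_le k2)
        (Ideal.pow_mem_pow h.pm _)))
      obtain ⟨c, hc, c', hc', e⟩ := Submodule.mem_sup.1 k1
      have e1 : c (β n ⟨w, hw⟩) = 0 := Du.apply_eq_zero hc (Du.span_kill ((b3 n _).1 ⟨_, rfl⟩))
      have e2 : c' (β n ⟨w, hw⟩) = 0 := Du.apply_eq_zero hc' fun u hu => by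
        rw [← map_smul, ← map_zero (β n)]
        exact congrArg _ (Subtype.ext (hk u hu))
      have e3 : (t • φ n) (β n ⟨w, hw⟩) = 0 := by
        rw [show t • φ n = c + c' from e.symm, Du.add_apply, e1, e2, add_zero]
      rw [CharacterModule.smul_apply, ← map_smul, ← Du.dual_app, hφ] at e3
      exact e3))
  exact ⟨η, t1, t2, t3, t5⟩

/-- **descent** -/
theorem PD.desc (h : PD ϖ y W W0) (U : Ultrafilter ℕ) (hU : (U : Filter ℕ) ≤ atTop) (𝔮 : Ideal P)
    [𝔮.IsPrime] (hK : PK P U W ≤ 𝔮) (hy : ∀ n i, y n i ∈ 𝔮) : Module.annihilator P W0 ≤ 𝔮 :=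
  fun t ht => dsc lim limi smu fgC boxC P U hU ι y _ (h.gd hU).gen 𝔮 hK hy (fun _ => t) t
    (cv_const _) fun n φ => (dtor P ι _ _ _).2 fun v hv => by
      obtain ⟨N, β, -, -, b3⟩ := h.fib n
      obtain ⟨w, rfl⟩ := (b3 v).2 hv
      rw [CharacterModule.smul_apply, ← map_smul,
        show t • w = 0 from Subtype.ext (Module.mem_annihilator.1 ht w.1), map_zero, map_zero]

/-- **descent** in the special fibre -/
theorem PD.desc1 (h : PD ϖ y W W0) (U : Ultrafilter ℕ) (hU : (U : Filter ℕ) ≤ atTop)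
    (𝔮 : Ideal P) [𝔮.IsPrime] (hK : PK P U W ≤ 𝔮) (hy : ∀ n i, y n i ∈ 𝔮) (hϖ : ϖ ∈ 𝔮) :
    Module.annihilator P (Submodule.torsionBy P W0 ϖ) ≤ 𝔮 :=
  fun t ht => dsc lim limi smu fgC boxC P U hU (Option ι) (fun n o => o.elim ϖ (y n)) _
    (h.gd hU).gen 𝔮 hK (fun n o => by
      cases o with
      | none => exact hϖ
      | some i => exact hy n i) (fun _ => t) t
    (cv_const _) fun n φ => (dtor P _ _ _ _).2 fun v hv => by
      obtain ⟨N, β, -, b2, b3⟩ := h.fib n
      obtain ⟨w, rfl⟩ := (b3 v).2 fun i => hv (some i)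
      have h1 : ϖ • w = 0 := b2 (by rw [map_smul, map_zero]; exact hv none)
      have h2 : t • w.1 = 0 :=
        congrArg Subtype.val (Module.mem_annihilator.1 ht ⟨w.1, congrArg Subtype.val h1⟩)
      rw [CharacterModule.smul_apply, ← map_smul, show t • w = 0 from Subtype.ext h2, map_zero,
        map_zero]

/-- compactness: finitely many elements suffice modulo a power of the maximal ideal -/
theorem chev (hd : Dis P W0) (hb : ∃ b, Sb P b W0) {𝔮 : Ideal P}
    (h : Module.annihilator P W0 ≤ 𝔮) (j : ℕ) :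
    ∃ s : Finset W0, ∀ t : P, (∀ w ∈ s, t • w = 0) → t ∈ 𝔮 ⊔ maximalIdeal P ^ j := by
  classical
  obtain ⟨b, s, s1, s2⟩ := hb
  have hF : Finite (ResidueField P) := Base.fin (P := P)
  haveI := (Du.card_of_span s s1 s2).1
  have hf : ∀ k : ℕ, (Submodule.torsionBySet P W0 (maximalIdeal P ^ k : Ideal P) : Set W0).Finite :=
    fun k => Du.finite_torsion_pow k
  by_contra c
  push Not at c
  choose t t1 t2 using fun k => c (hf k).toFinset
  let U : Ultrafilter ℕ := Ultrafilter.of atTop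
  have hU : (U : Filter ℕ) ≤ atTop := Ultrafilter.of_le _
  obtain ⟨a, ha⟩ := lim P U t
  refine (limi P U t a 𝔮 ha).2 j (Eventually.of_forall t2) (h (Module.mem_annihilator.2 fun w => ?_))
  obtain ⟨k, hk⟩ := hd w
  obtain ⟨n, k1, k2⟩ := ((ha k).and (hU (eventually_ge_atTop k))).exists
  have h1 := hk _ k1
  rw [sub_smul, t1 n w ((hf n).mem_toFinset.2 ((Submodule.mem_torsionBySet_iff _ _).2 fun u =>
    hk _ (Ideal.pow_le_pow_right k2 u.2))), zero_sub, neg_eq_zero] at h1
  exact h1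

end main

end Vale.Agent.P022K.Pat
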