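import Vale.Agent.P022K.Pat.Pm
import Vale.Agent.P022D.CA.BlkDefs

/-!
# P022K, patching: two points which lie on one component in every block of variables
-/

set_option linter.all false

open IsLocalRing MvPowerSeries

noncomputable section

namespace Vale.Agent.P022K.Pat

open Vale.Agent.P022D
open Vale.Agent.P022D.Core (PS)
open Vale.Agent.P022D.CA (emb)

namespace Blk

variable {σ A : Type} [CommRing A]

theorem coeff_pow_mem (𝔞 : Ideal A) {F : MvPowerSeries σ A} (h : ∀ m, coeff m F ∈ 𝔞) (n : ℕ) :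
    ∀ m, coeff m (F ^ n) ∈ 𝔞 ^ n := by
  classical
  induction n with
  | zero => intro m; simp
  | succ n ih =>
    intro m
    rw [pow_succ, pow_succ, coeff_mul]
    exact Ideal.sum_mem _ fun p _ => Ideal.mul_mem_mul (ih _) (h _)

theorem mem_map_C [IsNoetherianRing A] (𝔞 : Ideal A) {F : MvPowerSeries σ A}
    (h : ∀ m, coeff m F ∈ 𝔞) : F ∈ 𝔞.map (C : A →+* MvPowerSeries σ A) := by
  obtain ⟨k, s, hs⟩ := Submodule.fg_iff_exists_fin_generating_family.1 (IsNoetherian.noetherian 𝔞)
  choose c hc using fun m => (Submodule.mem_span_range_iff_exists_fun A).1 (hs ▸ h m)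
  let G : Fin k → MvPowerSeries σ A := fun i m => c m i
  have e : F = ∑ i, G i * C (s i) := by
    ext m
    rw [map_sum, ← hc]
    exact Finset.sum_congr rfl fun i _ => (coeff_mul_C m (G i) _).symm
  have h1 : ∀ i, s i ∈ 𝔞 := fun i => by
    rw [← hs]; exact Submodule.subset_span ⟨i, rfl⟩
  rw [e]
  exact Ideal.sum_mem _ fun i _ => Ideal.mul_mem_left _ _ (Ideal.mem_map_of_mem _ (h1 i))

/-- the elements which lie in `I` after localising at `𝔮` -/
def sat (I 𝔮 : Ideal A) [h : 𝔮.IsPrime] : Ideal A where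
  carrier := {t | ∃ g ∉ 𝔮, g * t ∈ I}
  zero_mem' := ⟨1, (Ideal.ne_top_iff_one _).1 h.ne_top, by simp⟩
  add_mem' := by
    rintro a b ⟨g, g1, g2⟩ ⟨k, k1, k2⟩
    refine ⟨g * k, fun c => (h.mem_or_mem c).elim g1 k1, ?_⟩
    rw [show g * k * (a + b) = k * (g * a) + g * (k * b) by ring]
    exact add_mem (I.mul_mem_left _ g2) (I.mul_mem_left _ k2)
  smul_mem' := by
    rintro c a ⟨g, g1, g2⟩
    exact ⟨g, g1, by rw [smul_eq_mul, mul_left_comm]; exact I.mul_mem_left _ g2⟩

/-- a linear form applied to the coefficients -/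
def lam {O : Type} [CommRing O] [Algebra O A] (l : A →ₗ[O] O) :
    MvPowerSeries σ A →+ MvPowerSeries σ O where
  toFun F := fun m => l (coeff m F)
  map_zero' := by ext m; exact map_zero l
  map_add' F G := by ext m; exact map_add l _ _

theorem lam_mul {O : Type} [CommRing O] [Algebra O A] (l : A →ₗ[O] O) (p : MvPowerSeries σ O)
    (F : MvPowerSeries σ A) : lam l (map (algebraMap O A) p * F) = p * lam l F := by
  classical
  ext m
  change l (coeff m _) = _
  rw [coeff_mul, coeff_mul, map_sum]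
  refine Finset.sum_congr rfl fun q _ => ?_
  rw [coeff_map, ← Algebra.smul_def, map_smul]
  rfl

end Blk

open Blk

variable {O σ : Type} [CommRing O] [IsDomain O] [IsDiscreteValuationRing O]

theorem pt_X {x : PS O σ →+* O} (hx : ∀ o, x (C o) = o) (s : σ) : x (X s) ∈ maximalIdeal O := by
  intro h
  have h1 : IsUnit (C (x (X s)) - X s : PS O σ) := by
    rw [isUnit_iff_constantCoeff]
    simpa using h
  have h2 := h1.map x
  rw [map_sub, hx, sub_self] at h2
  exact not_isUnit_zero h2

theorem X_mem (s : σ) [Fintype σ] {V : Type} [CommRing V] [IsLocalRing V] :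
    (X s : MvPowerSeries σ V) ∈ maximalIdeal _ := by
  rw [CA.Cpl.mem_max_iff, constantCoeff_X]; exact zero_mem _

theorem C_mem [Fintype σ] {V : Type} [CommRing V] [IsLocalRing V] {a : V}
    (h : a ∈ maximalIdeal V) : (C a : MvPowerSeries σ V) ∈ maximalIdeal _ := by
  rwa [CA.Cpl.mem_max_iff, constantCoeff_C]

/-- **block sums**: if two `O`-points lie on the prime `J b` in every block, then what vanishes on
the sum of the `J b` near `x'` vanishes at `x` -/
theorem sat_blocks [hO : Cf O] [Fintype σ] {β : Type} [Fintype β] {τ : β → Type}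
    [∀ b, Fintype (τ b)] (e : (Σ b, τ b) ↪ σ) (J : ∀ b, Ideal (PS O (τ b)))
    (hJ : ∀ b, (J b).IsPrime) {x x' : PS O σ →+* O} (hx : ∀ o, x (C o) = o)
    (hx' : ∀ o, x' (C o) = o) (h : ∀ b, ∀ j ∈ J b, x (rename (emb e b) j) = 0)
    (h' : ∀ b, ∀ j ∈ J b, x' (rename (emb e b) j) = 0) (g t : PS O σ) (hg : x' g ≠ 0)
    (ht : g * t ∈ ⨆ b, (J b).map (rename (R := O) (emb e b))) : x t = 0 := by
  classical
  suffices H : ∀ (S : Finset β) (g t : PS O σ), x' g ≠ 0 →
      g * t ∈ (⨆ b ∈ S, (J b).map (rename (R := O) (emb e b))) → x t = 0 from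
    H Finset.univ g t hg (by simpa using ht)
  intro S
  induction S using Finset.induction_on with
  | empty =>
    intro g t hg ht
    have h1 : g * t = 0 := by simpa using ht
    rw [(mul_eq_zero.1 h1).resolve_left fun c => hg (by rw [c, map_zero]), map_zero]
  | insert b S hb ih =>
  intro g t hg ht
  rw [Finset.iSup_insert] at ht
  let A := PS O (τ b)
  haveI : IsAdicComplete (maximalIdeal A) A := CA.Cpl.isAdicCompleteV hO.cpl
  haveI : IsAdicComplete (maximalIdeal (MvPowerSeries σ A)) (MvPowerSeries σ A) :=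
    CA.Cpl.isAdicCompleteV inferInstance
  let ρ : A →+* PS O σ := (rename (R := O) (emb e b) : A →ₐ[O] PS O σ)
  have ρC : ∀ o, ρ (C o) = C o := fun o => rename_C _ o
  have ρX : ∀ s, ρ (X s) = X (emb e b s) := fun s => rename_X _ s
  let v : σ → MvPowerSeries σ A := fun s => if k : ∃ u, emb e b u = s then C (X k.choose) else X s
  have v1 : ∀ u, v (emb e b u) = C (X u) := fun u => by
    have k : ∃ u', emb e b u' = emb e b u := ⟨u, rfl⟩
    simp only [v, dif_pos k, (emb e b).injective k.choose_spec]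
  have v2 : ∀ s, (¬ ∃ u, emb e b u = s) → v s = X s := fun s k => dif_neg k
  have vm : ∀ s, v s ∈ maximalIdeal (MvPowerSeries σ A) := fun s => by
    by_cases k : ∃ u, emb e b u = s
    · obtain ⟨u, rfl⟩ := k
      rw [v1]; exact C_mem (X_mem u)
    · rw [v2 s k]; exact X_mem s
  obtain ⟨φ, φC, φX⟩ := NR.exists_ev (maximalIdeal (MvPowerSeries σ A))
    ((C : A →+* _).comp (C : O →+* A)) v vm
  obtain ⟨ev, eC, eX⟩ := NR.exists_ev (maximalIdeal A) (RingHom.id A) (fun s => C (x (X s)))
    fun s => C_mem (pt_X hx s)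
  have alg : algebraMap O A = C := rfl
  have f1 : φ.comp ρ = C := NR.ev_ext (maximalIdeal _)
    (fun o => by rw [RingHom.comp_apply, ρC, φC]; rfl)
    (fun s => by rw [RingHom.comp_apply, ρX, φX, v1])
    fun s => by rw [RingHom.comp_apply, ρX, φX]; exact vm _
  have f2 : ∀ b' ≠ b, ∀ j : PS O (τ b'), φ (rename (emb e b') j) =
      map (algebraMap O A) (rename (emb e b') j) := fun b' hb' j => by
    have k : ∀ s, ¬ ∃ u, emb e b u = emb e b' s := by
      rintro s ⟨u, hu⟩
      exact hb' (congrArg Sigma.fst (e.injective hu)).symm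
    let ρ' : PS O (τ b') →+* PS O σ := (rename (R := O) (emb e b') : _ →ₐ[O] PS O σ)
    have a1 : ∀ o, ρ' (C o) = C o := fun o => rename_C _ o
    have a2 : ∀ s, ρ' (X s) = X (emb e b' s) := fun s => rename_X _ s
    exact RingHom.congr_fun (NR.ev_ext (maximalIdeal _) (φ := φ.comp ρ')
      (ψ := (map (algebraMap O A)).comp ρ')
      (fun o => by rw [RingHom.comp_apply, RingHom.comp_apply, a1, φC, map_C]; rfl)
      (fun s => by rw [RingHom.comp_apply, RingHom.comp_apply, a2, φX, map_X, v2 _ (k s)])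
      fun s => by rw [RingHom.comp_apply, a2, φX]; exact vm _) j
  have gen : ∀ {z : PS O σ →+* O} (hz : ∀ o, z (C o) = o) (χ : MvPowerSeries σ A →+* O),
      (∀ a, χ (C a) = z (ρ a)) → (∀ s, χ (X s) = z (X s)) → ∀ u, χ (φ u) = z u :=
    fun {z} hz χ c1 c2 u => by
      have k : ∀ s, χ (φ (X s)) = z (X s) := fun s => by
        rw [φX]
        by_cases k : ∃ u, emb e b u = s
        · obtain ⟨u, rfl⟩ := k
          rw [v1, c1, ρX]
        · rw [v2 s k, c2]
      exact RingHom.congr_fun (NR.ev_ext (maximalIdeal O) (φ := χ.comp φ) (ψ := z)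
        (fun o => by rw [RingHom.comp_apply, φC, RingHom.comp_apply, c1, ρC]) k
        fun s => (k s).symm ▸ pt_X hz s) u
  have f3 : ∀ u, x' (map (x'.comp ρ) (φ u)) = x' u := gen hx' (x'.comp (map (x'.comp ρ)))
    (fun a => by rw [RingHom.comp_apply, map_C, hx']; rfl)
    fun s => by rw [RingHom.comp_apply, map_X]
  have f4 : ∀ u, x (ρ (ev (φ u))) = x u := gen hx (x.comp (ρ.comp ev))
    (fun a => by rw [RingHom.comp_apply, RingHom.comp_apply, eC]; rfl)
    fun s => by rw [RingHom.comp_apply, RingHom.comp_apply, eX, ρC, hx]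
  have f5 : ev.comp (map (algebraMap O A)) = (C : O →+* A).comp x := NR.ev_ext (maximalIdeal _)
    (fun o => by rw [RingHom.comp_apply, RingHom.comp_apply, map_C, eC, hx]; rfl)
    (fun s => by rw [RingHom.comp_apply, RingHom.comp_apply, map_X, eX])
    fun s => by rw [RingHom.comp_apply, map_X, eX]; exact C_mem (pt_X hx s)
  let 𝔮 : Ideal A := RingHom.ker (x'.comp ρ)
  haveI hq : 𝔮.IsPrime := RingHom.ker_isPrime _
  have qC : ∀ o, (x'.comp ρ) (C o) = o := fun o => by rw [RingHom.comp_apply, ρC, hx']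
  have hJq : J b ≤ 𝔮 := h' b
  have key : ∀ n, ev (φ t) ∈ sat (J b ⊔ 𝔮 ^ (n + 1)) 𝔮 := by
    intro n
    set I := sat (J b ⊔ 𝔮 ^ (n + 1)) 𝔮 with hI
    have i1 : J b ⊔ 𝔮 ^ (n + 1) ≤ I := fun a ha =>
      ⟨1, (Ideal.ne_top_iff_one _).1 hq.ne_top, by rwa [one_mul]⟩
    have i2 : I ≤ 𝔮 := by
      rintro a ⟨k, k1, k2⟩
      exact (hq.mem_or_mem (sup_le hJq (Ideal.pow_le_self n.succ_ne_zero) k2)).resolve_left k1
    let ε : (A ⧸ I) →ₐ[O] O :=
      { Ideal.Quotient.lift I (x'.comp ρ) i2 with commutes' := qC }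
    haveI : Module.Finite O (A ⧸ I) :=
      Module.finite_of_surjective_of_ker_le_nilradical ε (fun o => ⟨algebraMap O _ o, qC o⟩)
        (fun a ha => by
          obtain ⟨a, rfl⟩ := Ideal.Quotient.mk_surjective a
          refine mem_nilradical.2 ⟨n + 1, ?_⟩
          rw [← map_pow, Ideal.Quotient.eq_zero_iff_mem]
          exact i1 (Ideal.mem_sup_right (Ideal.pow_mem_pow (show a ∈ 𝔮 from ha) _)))
        (IsNoetherian.noetherian _)
    haveI : Module.IsTorsionFree O (A ⧸ I) := Module.IsTorsionFree.of_smul_eq_zero fun o a ha => by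
      by_cases ho : o = 0
      · exact Or.inl ho
      obtain ⟨a, rfl⟩ := Ideal.Quotient.mk_surjective a
      obtain ⟨k, k1, k2⟩ : C o * a ∈ I := Ideal.Quotient.eq_zero_iff_mem.1 (by
        rw [map_mul, ← ha, Algebra.smul_def]; rfl)
      refine Or.inr (Ideal.Quotient.eq_zero_iff_mem.2 ⟨k * C o, fun c => (hq.mem_or_mem c).elim k1
        fun c => ho ((qC o).symm.trans c), by rwa [mul_assoc]⟩)
    let B := Module.Free.chooseBasis O (A ⧸ I)
    let l : Module.Free.ChooseBasisIndex O (A ⧸ I) → A →ₗ[O] O := fun i =>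
      (B.coord i).comp (Ideal.Quotient.mkₐ O I).toLinearMap
    have l0 : ∀ i (F : MvPowerSeries σ A), F ∈ I.map (C : A →+* MvPowerSeries σ A) →
        lam (l i) F = 0 := fun i F hF => by
      have k : I.map (C : A →+* MvPowerSeries σ A) ≤ RingHom.ker (map (Ideal.Quotient.mk I)) :=
        Ideal.map_le_iff_le_comap.2 fun a ha => by
          change map _ (C a) = 0
          rw [map_C, Ideal.Quotient.eq_zero_iff_mem.2 ha, map_zero]
      ext m
      have k2 := congrArg (coeff m) (k hF)
      rw [coeff_map] at k2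
      change B.coord i (Ideal.Quotient.mk I (coeff m F)) = 0
      rw [k2, map_zero, map_zero]
    have x0 : ∀ i, x (lam (l i) (φ t)) = 0 := fun i => by
      let g0 := map (x'.comp ρ) (φ g)
      let ν := map (algebraMap O A) g0 - φ g
      have n1 : ν ^ (n + 1) ∈ I.map (C : A →+* MvPowerSeries σ A) :=
        mem_map_C _ fun m => i1 (Ideal.mem_sup_right (coeff_pow_mem 𝔮 (fun m => by
          change (x'.comp ρ) (coeff m _) = 0
          rw [map_sub, map_sub, coeff_map, coeff_map, alg, qC, sub_self]) _ m))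
      obtain ⟨c, hc⟩ := sub_dvd_pow_sub_pow (map (algebraMap O A) g0) ν (n + 1)
      rw [sub_sub_cancel, sub_eq_iff_eq_add, ← map_pow] at hc
      let K : Ideal (PS O σ) :=
        { carrier := {u | ∀ c, lam (l i) (c * φ u) ∈
            ⨆ b ∈ S, (J b).map (rename (R := O) (emb e b))}
          zero_mem' := fun c => by rw [map_zero, mul_zero, map_zero]; exact zero_mem _
          add_mem' := fun ha hb c => by rw [map_add, mul_add, map_add]; exact add_mem (ha c) (hb c)
          smul_mem' := fun a u hu c => by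
            rw [smul_eq_mul, map_mul φ, ← mul_assoc]; exact hu _ }
      have hK : g * t ∈ K := by
        refine (sup_le (Ideal.map_le_iff_le_comap.2 fun j hj c => ?_) (iSup₂_le fun b' hb' =>
          Ideal.map_le_iff_le_comap.2 fun j hj c => ?_) : _ ≤ K) ht
        · rw [show φ (rename (emb e b) j) = C j from RingHom.congr_fun f1 j, l0 i _
            (Ideal.mul_mem_left _ _ (Ideal.mem_map_of_mem _ (i1 (Ideal.mem_sup_left hj))))]
          exact zero_mem _
        · rw [f2 b' (fun k => hb (k ▸ hb')), mul_comm, lam_mul]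
          exact Ideal.mul_mem_right _ _ (Ideal.mem_iSup_of_mem b' (Ideal.mem_iSup_of_mem hb'
            (Ideal.mem_map_of_mem _ hj)))
      refine ih (g0 ^ (n + 1)) _ (by rw [map_pow, f3]; exact pow_ne_zero _ hg) ?_
      rw [← lam_mul, hc, add_mul, map_add, l0 i _ (Ideal.mul_mem_right _ _ n1), add_zero,
        mul_comm (φ g), mul_assoc, ← map_mul]
      exact hK c
    choose u hu using fun i => Ideal.Quotient.mk_surjective (B i)
    have d : φ t - ∑ i, map (algebraMap O A) (lam (l i) (φ t)) * C (u i) ∈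
        I.map (C : A →+* MvPowerSeries σ A) := mem_map_C _ fun m => by
      rw [← Ideal.Quotient.eq_zero_iff_mem, map_sub, map_sub, map_sum, map_sum, sub_eq_zero,
        ← B.sum_repr (Ideal.Quotient.mk I (coeff m (φ t)))]
      refine Finset.sum_congr rfl fun i _ => ?_
      rw [coeff_mul_C, coeff_map, map_mul, hu, Algebra.smul_def]
      rfl
    have d2 := Ideal.mem_map_of_mem ev d
    rw [Ideal.map_map, show ev.comp C = RingHom.id A from RingHom.ext eC, Ideal.map_id, map_sub,
      map_sum, Finset.sum_eq_zero, sub_zero] at d2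
    · exact d2
    · intro i _
      rw [map_mul, show ev (map _ _) = C (x _) from RingHom.congr_fun f5 _, x0, map_zero, zero_mul]
  obtain ⟨k, k1, k2⟩ := PA.kru A 𝔮 A (J b) (ev (φ t)) fun n => by
    obtain ⟨k, k1, k2⟩ := key n
    refine ⟨k, k1, ?_⟩
    rw [smul_eq_mul, smul_eq_mul, Ideal.mul_top]
    exact (sup_le_sup_left (Ideal.pow_le_pow_right n.le_succ) _ : J b ⊔ 𝔮 ^ (n + 1) ≤ _) k2
  rw [← f4]
  exact h b _ (((hJ b).mem_or_mem k2).resolve_left fun c => k1 (hJq c))

end Vale.Agent.P022K.Pat
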