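import Vale.Agent.P022K.Pat.Blk
import Vale.Agent.P022D.Rl.Ch0
import Vale.Agent.P022D.CA.Jac

/-!
# P022K, patching: the local input `Loc` in the standard cases, points of finite algebras
-/

set_option linter.all false

open IsLocalRing MvPowerSeries

noncomputable section

namespace Vale.Agent.P022K.Pat

open Vale.Agent.P022D
open Vale.Agent.P022D.Core (PS)
open Vale.Agent.P022D.CA (emb)

theorem Loc.mono {A : Type} [CommRing A] {I I' 𝔭 𝔭' 𝔮 𝔮' : Ideal A} {d d' : WithBot ℕ∞}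
    (h : Loc I 𝔭 𝔮 d) (h1 : I ≤ I') (h2 : 𝔭' ≤ 𝔭) (h3 : 𝔮 ≤ 𝔮') (h4 : d ≤ d') : Loc I' 𝔭' 𝔮' d' :=
  fun η a b c e => (h η a (h1.trans b) (c.trans h2) (h4.trans e)).trans h3

/-- a smooth point of the expected dimension lies on one component -/
theorem loc_jac {A : Type} [CommRing A] [IsRegularLocalRing A] {R : Type} [CommRing R]
    [Algebra R A] {c d : ℕ} (hn : ringKrullDim A ≤ (d + c : ℕ)) (D : Fin c → Derivation R A A)
    (f : Fin c → A) {I 𝔭 𝔮 : Ideal A} [hp : 𝔭.IsPrime] (hf : ∀ i, f i ∈ I) (hI : I ≤ 𝔭)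
    (hD : (Matrix.of fun i j => D j (f i)).det ∉ 𝔭)
    (hq : ∀ g t, g ∉ 𝔭 → g * t ∈ I → t ∈ 𝔮) : Loc I 𝔭 𝔮 d := by
  classical
  have key : ∀ η : Ideal A, η.IsPrime → η ≤ 𝔭 → ∀ l : Fin c → A,
      (∀ j, ∑ i, l i * D j (f i) ∈ η) → ∀ i, l i ∈ η := by
    intro η hη hle l hl i
    set M : Matrix (Fin c) (Fin c) A := Matrix.of fun i j => D j (f i) with hM
    have e : Matrix.vecMul (Matrix.vecMul l M) M.adjugate i = M.det * l i := by
      rw [Matrix.vecMul_vecMul, Matrix.mul_adjugate, Matrix.vecMul_smul, Matrix.vecMul_one]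
      rfl
    have h1 : M.det * l i ∈ η := by
      rw [← e, Matrix.vecMul, dotProduct]
      exact Ideal.sum_mem _ fun j _ => Ideal.mul_mem_right _ _ (hl j)
    exact (hη.mem_or_mem h1).resolve_left fun k => hD (hle k)
  obtain ⟨-, Q, q1, q2, q3, g, g1, g2⟩ := Jac.jac D f 𝔭 (fun i => hI (hf i)) (key 𝔭 hp le_rfl)
  have hs : Ideal.span (Set.range f) ≤ I := Ideal.span_le.2 (by rintro _ ⟨i, rfl⟩; exact hf i)
  refine loc_of_prime q1 ?_ (fun t ht => ⟨g, g1, hs (g2 t ht)⟩) fun t ht => hq g t g1 (hs (g2 t ht))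
  obtain ⟨h1, -⟩ := Jac.jac D f Q (fun i => q2 (Ideal.subset_span ⟨i, rfl⟩)) (key Q q1 q3)
  obtain ⟨n, h2⟩ : ∃ n : ℕ, ringKrullDim A = n :=
    ⟨_, (IsRegularLocalRing.spanFinrank_maximalIdeal (R := A)).symm⟩
  obtain ⟨h, e, e1, e2, e3⟩ := Jac.dim_add_height h2 Q
  rw [e1] at h1
  rw [h2] at hn
  rw [e2]
  have h3 : c ≤ h := by exact_mod_cast h1
  have h4 : n ≤ d + c := by exact_mod_cast hn
  exact_mod_cast (by omega : e ≤ d)

variable {O σ : Type} [CommRing O] [IsDomain O] [IsDiscreteValuationRing O]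

theorem dim_ps [Fintype σ] :
    ringKrullDim (PS O σ) = ((Fintype.card σ + 1 : ℕ) : WithBot ℕ∞) := by
  obtain ⟨ϖ, h⟩ := IsDiscreteValuationRing.exists_irreducible O
  exact (Rl.Ch0.reg h.maximalIdeal_eq).2

theorem reg_ps [Fintype σ] : IsRegularLocalRing (PS O σ) := by
  obtain ⟨ϖ, h⟩ := IsDiscreteValuationRing.exists_irreducible O
  exact (Rl.Ch0.reg h.maximalIdeal_eq).1

/-- no relation -/
theorem loc_bot [Fintype σ] {d : ℕ} (hd : Fintype.card σ + 1 ≤ d) (I 𝔭 𝔮 : Ideal (PS O σ)) :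
    Loc I 𝔭 𝔮 d := fun η h1 _ _ h4 => by
  rcases (bot_le (a := η)).eq_or_lt with e | e
  · exact e ▸ bot_le
  · have h5 := (CA.dimGE_succ Ideal.isPrime_bot e h4).trans
      (ringKrullDim_quotient_le (⊥ : Ideal (PS O σ)))
    rw [dim_ps] at h5
    exact absurd (by exact_mod_cast h5 : d + 1 ≤ Fintype.card σ + 1) (by omega)

/-- one irreducible equation -/
theorem loc_hyp [Fintype σ] {d : ℕ} (hd : Fintype.card σ ≤ d) {I 𝔭 𝔮 : Ideal (PS O σ)}
    {F : PS O σ} (hF : Prime F) (h1 : F ∈ I) (h2 : F ∈ 𝔮) : Loc I 𝔭 𝔮 d := fun η a b _ h4 => by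
  have hs := (Ideal.span_singleton_prime hF.ne_zero).2 hF
  rcases ((Ideal.span_singleton_le_iff_mem η).2 (b h1)).eq_or_lt with e | e
  · exact e ▸ (Ideal.span_singleton_le_iff_mem _).2 h2
  · have h5 := (CA.dimGE_succ Ideal.isPrime_bot (bot_lt_iff_ne_bot.2
      (Ideal.span_singleton_eq_bot.not.2 hF.ne_zero)) (CA.dimGE_succ hs e h4)).trans
      (ringKrullDim_quotient_le (⊥ : Ideal (PS O σ)))
    rw [dim_ps] at h5
    exact absurd (by exact_mod_cast h5 : d + 1 + 1 ≤ Fintype.card σ + 1) (by omega)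

/-- **smooth seed, several blocks**: `x'` is a smooth point of `I` of the expected dimension, and
`x`, `x'` lie on the same prime `J b` in every block -/
theorem loc_blocks [Cf O] [Fintype σ] {β : Type} [Fintype β] {τ : β → Type}
    [∀ b, Fintype (τ b)] (e : (Σ b, τ b) ↪ σ) (J : ∀ b, Ideal (PS O (τ b)))
    (hJ : ∀ b, (J b).IsPrime) {x x' : PS O σ →+* O} (hx : ∀ o, x (C o) = o)
    (hx' : ∀ o, x' (C o) = o) (h : ∀ b, ∀ j ∈ J b, x (rename (emb e b) j) = 0)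
    (h' : ∀ b, ∀ j ∈ J b, x' (rename (emb e b) j) = 0) {I : Ideal (PS O σ)}
    (hI : I ≤ ⨆ b, (J b).map (rename (R := O) (emb e b))) {c d : ℕ}
    (hd : Fintype.card σ + 1 ≤ d + c) (f : Fin c → PS O σ) (hf : ∀ i, f i ∈ I) (s : Fin c → σ)
    (hD : x' (Matrix.of fun i j => pderiv O (s j) (f i)).det ≠ 0) :
    Loc I (RingHom.ker x') (RingHom.ker x) d := by
  haveI := reg_ps (O := O) (σ := σ)
  haveI := RingHom.ker_isPrime x'
  exact loc_jac (by rw [dim_ps]; exact_mod_cast hd) (fun j => pderiv O (s j)) f hf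
    (hI.trans (iSup_le fun b => Ideal.map_le_iff_le_comap.2 (h' b))) hD
    fun g t a b => sat_blocks e J hJ hx hx' h h' g t a (hI b)

/-- a prime which is not the maximal ideal has positive dimension -/
theorem dim_pt {A : Type} [CommRing A] [IsLocalRing A] {𝔭 : Ideal A} (hp : 𝔭.IsPrime) {a : A}
    (h1 : a ∈ maximalIdeal A) (h2 : a ∉ 𝔭) : ((1 : ℕ) : WithBot ℕ∞) ≤ ringKrullDim (A ⧸ 𝔭) := by
  haveI : Nontrivial (A ⧸ maximalIdeal A) :=
    Ideal.Quotient.nontrivial_iff.2 (maximalIdeal.isMaximal A).ne_top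
  exact CA.dimGE_succ (k := 0) hp (lt_of_le_of_ne (le_maximalIdeal hp.ne_top) fun e => h2 (e ▸ h1))
    (by exact_mod_cast ringKrullDim_nonneg_of_nontrivial)

/-- few relations -/
theorem dim_few [Fintype σ] {c k : ℕ} (f : Fin c → PS O σ) (hf : ∀ i, f i ∈ maximalIdeal (PS O σ))
    (h : k + c ≤ Fintype.card σ + 1) :
    (k : WithBot ℕ∞) ≤ ringKrullDim (PS O σ ⧸ Ideal.span (Set.range f)) := by
  have h1 := CA.dimGE_ofList (List.ofFn f) (I := ⊥) (k := k)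
    (fun g hg => by obtain ⟨i, rfl⟩ := List.mem_ofFn.1 hg; exact hf i)
    (by
      rw [ringKrullDim_eq_of_ringEquiv (RingEquiv.quotientBot _), dim_ps, List.length_ofFn]
      exact_mod_cast h)
  refine CA.dimGE_mono ?_ h1
  exact Ideal.span_le.2 (by
    rintro _ ⟨i, rfl⟩
    exact Ideal.mem_sup_right (Ideal.subset_span (List.mem_ofFn.2 ⟨i, rfl⟩)))

/-- **lifts**: a finite algebra of positive dimension has a point in characteristic zero -/
theorem lift_prime (R : Type) [CommRing R] [Algebra O R] [Algebra.IsIntegral O R]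
    (h : ((1 : ℕ) : WithBot ℕ∞) ≤ ringKrullDim R) :
    ∃ 𝔮 : Ideal R, 𝔮.IsPrime ∧ 𝔮.comap (algebraMap O R) = ⊥ := by
  rw [ringKrullDim, Order.le_krullDim_iff] at h
  obtain ⟨l, hl⟩ := h
  have h1 : (l ⟨0, by omega⟩).asIdeal < (l ⟨1, by omega⟩).asIdeal :=
    l.strictMono (by simp [Fin.lt_def])
  haveI := (l ⟨0, by omega⟩).2
  haveI := (l ⟨1, by omega⟩).2
  have h2 := Ideal.IsIntegral.comap_lt_comap (R := O) h1
  refine ⟨_, (l ⟨0, by omega⟩).2, by_contra fun c => ?_⟩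
  have h3 := (Ring.DimensionLEOne.maximalOfPrime c inferInstance).eq_of_le
    (Ideal.IsPrime.ne_top inferInstance) h2.le
  exact h2.ne h3

theorem lift_pt (R : Type) [CommRing R] [Algebra O R] [Algebra.IsIntegral O R]
    (h : ((1 : ℕ) : WithBot ℕ∞) ≤ ringKrullDim R) (Ω : Type) [Field Ω] [IsAlgClosed Ω]
    [Algebra O Ω] [FaithfulSMul O Ω] : Nonempty (R →ₐ[O] Ω) := by
  obtain ⟨𝔮, h1, h2⟩ := lift_prime (O := O) R h
  haveI : FaithfulSMul O (R ⧸ 𝔮) := (faithfulSMul_iff_algebraMap_injective _ _).2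
    ((injective_iff_map_eq_zero _).2 fun o ho => by
      rw [← Ideal.mem_bot, ← h2, Ideal.mem_comap]
      exact Ideal.Quotient.eq_zero_iff_mem.1 ho)
  exact ⟨(IsAlgClosed.lift : (R ⧸ 𝔮) →ₐ[O] Ω).comp (Ideal.Quotient.mkₐ O 𝔮)⟩

end Vale.Agent.P022K.Pat
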