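import Vale.Agent.P022K.Pat.Alg
import Vale.Agent.P022K.Pat.Cov
import Vale.Agent.P022D.CA.Dep

/-!
# P022K, patching: the machine `PM`
-/

set_option linter.all false

open IsLocalRing Filter

noncomputable section

namespace Vale.Agent.P022K.Pat

open Vale.Agent.P022D Vale.Agent.P022D.PA Vale.Agent.P022D.As Vale.Agent.P022D.As.EA
open Vale.Agent.P022D.Core (PS io y1)

/-- the extra variables are sent to zero -/
def ko (O σ : Type) [CommRing O] (r : ℕ) : PS O (σ ⊕ Fin r) →+* PS O σ :=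
  (MvPowerSeries.killCompl (R := O) (Function.Embedding.inl : σ ↪ σ ⊕ Fin r) :
    PS O (σ ⊕ Fin r) →ₐ[O] _)

section
variable {O σ : Type} [CommRing O] {r : ℕ}

theorem ko_io (a : PS O σ) : ko O σ r (io O σ r a) = a :=
  MvPowerSeries.killCompl_rename_app a

theorem ko_y1 (i : Fin r) : ko O σ r (y1 O σ i) = 0 :=
  MvPowerSeries.killCompl_X_eq_zero (by rintro ⟨s, h⟩; exact Sum.inl_ne_inr h)

theorem ko_C (o : O) : ko O σ r (MvPowerSeries.C o) = MvPowerSeries.C o :=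
  MvPowerSeries.killCompl_C o

theorem io_C (o : O) : io O σ r (MvPowerSeries.C o) = MvPowerSeries.C o :=
  MvPowerSeries.rename_C _ o

theorem io_unit {a : PS O σ} (h : IsUnit (io O σ r a)) : IsUnit a :=
  ko_io (r := r) a ▸ h.map (ko O σ r)

end

/-- the relations: the variables `y1 i` are roots of quadratic polynomials, `I` acts by zero -/
structure Rel {O σ : Type} [CommRing O] {r : ℕ} (a b : ℕ → Fin r → PS O σ) (I : Ideal (PS O σ))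
    (W : ℕ → Type) [∀ n, AddCommGroup (W n)] [∀ n, Module (PS O (σ ⊕ Fin r)) (W n)] : Prop where
  quad : ∀ n i (w : W n),
    (y1 O σ i ^ 2 - io O σ r (a n i) * y1 O σ i + io O σ r (b n i)) • w = 0
  kil : ∀ t ∈ I, ∀ n (w : W n), io O σ r t • w = 0

/-- the target: a prime at which all the parameters vanish -/
structure Tgt {O σ ι : Type} [CommRing O] {r : ℕ} (y : ℕ → ι → PS O (σ ⊕ Fin r))
    (a b : ℕ → Fin r → PS O σ) (𝔮 : Ideal (PS O σ)) : Prop where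
  prime : 𝔮.IsPrime
  ha : ∀ n i, a n i ∈ 𝔮
  hb : ∀ n i, b n i ∈ 𝔮
  hy : ∀ n s, ko O σ r (y n s) ∈ 𝔮

/-- the local input: large primes over `I` inside `𝔭` lie in `𝔮` -/
def Loc {A : Type} [CommRing A] (I 𝔭 𝔮 : Ideal A) (d : WithBot ℕ∞) : Prop :=
  ∀ η : Ideal A, η.IsPrime → I ≤ η → η ≤ 𝔭 → d ≤ ringKrullDim (A ⧸ η) → η ≤ 𝔮

/-- one component `J` through `𝔭`, and `𝔮` lies on it -/
theorem loc_of_prime {A : Type} [CommRing A] {I J 𝔭 𝔮 : Ideal A} {d : ℕ} (hJ : J.IsPrime)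
    (hd : ringKrullDim (A ⧸ J) ≤ d) (h : ∀ t ∈ J, ∃ g ∉ 𝔭, g * t ∈ I) (hq : J ≤ 𝔮) :
    Loc I 𝔭 𝔮 d := by
  intro η h1 h2 h3 h4
  have h5 : J ≤ η := fun t ht => by
    obtain ⟨g, g1, g2⟩ := h t ht
    exact (h1.mem_or_mem (h2 g2)).resolve_left fun c => g1 (h3 c)
  rcases h5.eq_or_lt with e | e
  · exact e ▸ hq
  · have := (CA.dimGE_succ hJ e h4).trans hd
    exact absurd (by exact_mod_cast this : d + 1 ≤ d) (by omega)

section main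

variable {O σ ι : Type} [CommRing O] [IsDomain O] [IsDiscreteValuationRing O] [Cf O] [Fintype σ]
  [Fintype ι] {r : ℕ} {ϖ : O} {y : ℕ → ι → PS O (σ ⊕ Fin r)} {W : ℕ → Type} {W0 : Type}
  [∀ n, AddCommGroup (W n)] [∀ n, Module (PS O (σ ⊕ Fin r)) (W n)] [AddCommGroup W0]
  [Module (PS O (σ ⊕ Fin r)) W0] {a b : ℕ → Fin r → PS O σ} {I 𝔮 : Ideal (PS O σ)}

theorem pm_core (hR : Rel a b I W) (hq : Tgt y a b 𝔮) (U : Ultrafilter ℕ)
    {𝔭 η : Ideal (PS O (σ ⊕ Fin r))} {d : WithBot ℕ∞} (t1 : η.IsPrime) (t2 : η ≤ 𝔭)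
    (t3 : PK _ U W ≤ η) (t4 : d ≤ ringKrullDim (PS O (σ ⊕ Fin r) ⧸ η))
    (hL : Loc I (𝔭.comap (io O σ r)) 𝔮 d) : PK _ U W ≤ 𝔮.comap (ko O σ r) := by
  letI : Algebra (PS O σ) (PS O (σ ⊕ Fin r)) := (io O σ r).toAlgebra
  have hio : ∀ z ∈ maximalIdeal (PS O σ), io O σ r z ∈ maximalIdeal (PS O (σ ⊕ Fin r)) :=
    fun z hz h => hz (io_unit h)
  haveI := hq.prime
  choose a0 ha using fun i => lim _ U fun n => a n i
  choose b0 hb using fun i => lim _ U fun n => b n i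
  have qa : ∀ i, a0 i ∈ 𝔮 := fun i =>
    (limi _ U _ _ _ (ha i)).1 (Eventually.of_forall fun n => hq.ha n i)
  have qb : ∀ i, b0 i ∈ 𝔮 := fun i =>
    (limi _ U _ _ _ (hb i)).1 (Eventually.of_forall fun n => hq.hb n i)
  have hc := cov O σ r a0 b0 fun i =>
    ⟨fun h => hq.prime.ne_top (Ideal.eq_top_of_isUnit_mem _ (qa i) h),
      fun h => hq.prime.ne_top (Ideal.eq_top_of_isUnit_mem _ (qb i) h)⟩
  have k1 : Ideal.span (Set.range fun i => y1 O σ i ^ 2 - io O σ r (a0 i) * y1 O σ i +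
      io O σ r (b0 i)) ≤ PK _ U W := Ideal.span_le.2 (by
    rintro _ ⟨i, rfl⟩
    exact mem_PK (cv_add (cv_sub (cv_const _) (cv_mul (cv_map _ hio (ha i)) (cv_const _)))
      (cv_map _ hio (hb i))) fun n => hR.quad n i)
  have k2 : η.comap (io O σ r) ≤ 𝔮 := hL _ inferInstance
    (fun t ht => t3 (mem_PK (cv_const _) (hR.kil t ht))) (Ideal.comap_mono t2)
    (t4.trans ((etl _ _ _ _ _ _ _ hc).1 η (k1.trans t3)).1.le)
  have e : ∀ z, io O σ r z ∈ 𝔮.comap (ko O σ r) ↔ z ∈ 𝔮 := fun z => by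
    rw [Ideal.mem_comap, ko_io]
  have e1 : ∀ i, y1 O σ i ∈ 𝔮.comap (ko O σ r) := fun i => by
    rw [Ideal.mem_comap, ko_y1]; exact zero_mem _
  refine (etl _ _ _ _ _ _ _ hc).2 _ (𝔮.comap (ko O σ r)) k1 (Ideal.span_le.2 ?_) e1
    (fun i => ⟨(e _).2 (qa i), (e _).2 (qb i)⟩) fun t ht => (e t).2 (k2 (t3 ht))
  rintro _ ⟨i, rfl⟩
  exact add_mem (sub_mem (Ideal.pow_mem_of_mem _ (e1 i) 2 two_pos)
    (Ideal.mul_mem_left _ _ (e1 i))) ((e _).2 (qb i))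

/-- the conclusion: `𝔮` lies in the support of `W0` (and of `W0[ϖ]` if it contains `ϖ`) -/
structure Out (ϖ : O) (W0 : Type) [AddCommGroup W0] [Module (PS O (σ ⊕ Fin r)) W0]
    (𝔮 : Ideal (PS O σ)) : Prop where
  ann : Module.annihilator (PS O (σ ⊕ Fin r)) W0 ≤ 𝔮.comap (ko O σ r)
  fin : ∀ j : ℕ, ∃ s : Finset W0, ∀ t : PS O σ, (∀ w ∈ s, io O σ r t • w = 0) →
    t ∈ 𝔮 ⊔ maximalIdeal (PS O σ) ^ j
  tor : MvPowerSeries.C ϖ ∈ 𝔮 → Module.annihilator (PS O (σ ⊕ Fin r))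
    (Submodule.torsionBy (PS O (σ ⊕ Fin r)) W0 (MvPowerSeries.C ϖ)) ≤ 𝔮.comap (ko O σ r)

theorem out_of (h : PD (MvPowerSeries.C ϖ) y W W0) (hq : Tgt y a b 𝔮) (U : Ultrafilter ℕ)
    (hU : (U : Filter ℕ) ≤ atTop) (hK : PK _ U W ≤ 𝔮.comap (ko O σ r)) : Out (r := r) ϖ W0 𝔮 := by
  haveI := hq.prime
  have h1 := h.desc U hU _ hK hq.hy
  refine ⟨h1, fun j => ?_, fun c => h.desc1 U hU _ hK hq.hy (by rwa [Ideal.mem_comap, ko_C])⟩
  obtain ⟨s, hs⟩ := chev h.dis0 h.sb0 h1 j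
  refine ⟨s, fun t ht => ?_⟩
  obtain ⟨u, hu, v, hv, e⟩ := Submodule.mem_sup.1 (hs _ ht)
  rw [← ko_io (r := r) t, ← e, map_add]
  refine Submodule.add_mem_sup hu (Ideal.le_comap_pow _ j (Ideal.pow_right_mono (fun z hz => ?_) j hv))
  rw [Ideal.mem_comap, CA.Cpl.mem_max_iff]
  rw [CA.Cpl.mem_max_iff] at hz
  exact hz

/-- **PM, big fibre**: one prime `𝔭` in the support of `W0[ϖ]` -/
theorem pm_big (h : PD (MvPowerSeries.C ϖ) y W W0) (hR : Rel a b I W) (hq : Tgt y a b 𝔮)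
    (𝔭 : Ideal (PS O (σ ⊕ Fin r))) [𝔭.IsPrime] (hp : Module.annihilator (PS O (σ ⊕ Fin r))
      (Submodule.torsionBy (PS O (σ ⊕ Fin r)) W0 (MvPowerSeries.C ϖ)) ≤ 𝔭) {e : ℕ}
    (he : (e : WithBot ℕ∞) ≤ ringKrullDim (PS O (σ ⊕ Fin r) ⧸ 𝔭))
    (hL : Loc I (𝔭.comap (io O σ r)) 𝔮 ((Fintype.card ι + 1 + e : ℕ) : WithBot ℕ∞)) :
    Out (r := r) ϖ W0 𝔮 := by
  have hU : ((Ultrafilter.of atTop : Ultrafilter ℕ) : Filter ℕ) ≤ atTop := Ultrafilter.of_le _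
  obtain ⟨η, t1, t2, t3, t4⟩ := h.big _ hU 𝔭 hp
  exact out_of h hq _ hU (pm_core hR hq _ t1 t2 t3
    (le_trans (by rw [Nat.cast_add _ e]; exact add_le_add le_rfl he) t4) hL)

/-- **PM, seed**: one prime `𝔭` in the support of `W0` -/
theorem pm_seed (h : PD (MvPowerSeries.C ϖ) y W W0) (hR : Rel a b I W) (hq : Tgt y a b 𝔮)
    (𝔭 : Ideal (PS O (σ ⊕ Fin r))) [𝔭.IsPrime]
    (hp : Module.annihilator (PS O (σ ⊕ Fin r)) W0 ≤ 𝔭) {e : ℕ}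
    (he : (e : WithBot ℕ∞) ≤ ringKrullDim (PS O (σ ⊕ Fin r) ⧸ 𝔭))
    (hL : Loc I (𝔭.comap (io O σ r)) 𝔮 ((Fintype.card ι + e : ℕ) : WithBot ℕ∞)) :
    Out (r := r) ϖ W0 𝔮 := by
  have hU : ((Ultrafilter.of atTop : Ultrafilter ℕ) : Filter ℕ) ≤ atTop := Ultrafilter.of_le _
  obtain ⟨η, t1, t2, t3, t4⟩ := h.seed _ hU 𝔭 hp
  exact out_of h hq _ hU (pm_core hR hq _ t1 t2 t3
    (le_trans (by rw [Nat.cast_add _ e]; exact add_le_add le_rfl he) t4) hL)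

end main

end Vale.Agent.P022K.Pat
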